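import Vale.Agent.P133.AnySize

/-!
P133 (Kirchberg-Rordam): the three notions of pure infiniteness agree for algebras of any
size of finite nuclear dimension, and in the separable case whenever the central sequence algebra
has no characters.
-/

namespace Vale.Agent.Results.P133.FiniteNuclearDimension

open Filter Vale.Agent.P133 Vale.Agent.P095.W

/-- Weakly purely infinite gives purely and strongly purely infinite. -/
theorem result :
    (∀ (A : Type) [NonUnitalCStarAlgebra A] (d : ℕ),
      HasNuclearDimensionLE A d → IsWeaklyPurelyInfinite A →
        IsPurelyInfinite A ∧ IsStronglyPurelyInfinite A) ∧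
    (∀ (A : Type) [NonUnitalCStarAlgebra A] [TopologicalSpace.SeparableSpace A]
      (w : Ultrafilter ℕ), (w : Filter ℕ) ≤ cofinite → NoChar A w → IsWeaklyPurelyInfinite A →
        IsPurelyInfinite A ∧ IsStronglyPurelyInfinite A) :=
  ⟨fun _ _ _ hd hA => purelyInfinite_of_dimension hd hA,
    fun _ _ _ _ hw hno hA => purelyInfinite_of_noChar hw hno hA⟩

end Vale.Agent.Results.P133.FiniteNuclearDimension
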